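import Vale.Agent.P139Z.ShB.Sys

/-! Estimates for the radial velocity. -/

open Set Filter Topology MeasureTheory

namespace Vale.Agent.P139Z.ShB

namespace Sys

variable {a β T : ℝ} {l u w : ℝ → ℝ} (S : Sys a β T l u w) {ρ : ℝ}
include S

theorem mom (h : ρ ∈ Ioc 0 T) (c : ℝ) :
    HasDerivAt (fun x => x ^ 5 * Real.exp (l x) * (x * u x) - c * x ^ 6)
      (ρ ^ 5 * (Real.exp (l ρ) * (Th a β l w ρ / 4) - 6 * c)) ρ := by
  have h1 := (((hasDerivAt_pow 5 ρ).mul (S.hl ρ (Ioc_subset_Icc_self h)).exp).mul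
    (S.hU h)).sub ((hasDerivAt_pow 6 ρ).const_mul c)
  refine h1.congr_deriv ?_
  simp only [Pi.mul_apply, Gd]
  push_cast
  ring

theorem cmom (c : ℝ) :
    ContinuousOn (fun x => x ^ 5 * Real.exp (l x) * (x * u x) - c * x ^ 6) (Icc 0 T) := by
  have h1 := S.cl
  have h2 := S.cu
  fun_prop

theorem u_bd (hρ : ρ ∈ Icc 0 T) : -(1 / 100) ≤ u ρ ∧ u ρ ≤ 2 * a := by
  have ha0 := S.a0
  have ha1 := S.a1
  rcases hρ.1.eq_or_lt with h0 | h0
  · subst h0
    constructor <;> linarith [S.u0, S.Th_le hρ, S.Th_ge hρ]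
  have hs : Icc 0 ρ ⊆ Icc 0 T := Icc_subset_Icc_right hρ.2
  have hs' : ∀ x ∈ Ioo 0 ρ, x ∈ Ioc 0 T := fun x hx => ⟨hx.1, hx.2.le.trans hρ.2⟩
  have h1 := cmp_le h0.le ((S.cmom (-(9 / 1000))).mono hs)
    (fun x hx => S.mom (hs' x hx) _) fun x hx => mul_nonneg (pow_pos hx.1 5).le (by
      have h := Ioc_subset_Icc_self (hs' x hx)
      nlinarith [S.q_le h, S.Th_ge h, Real.exp_pos (l x)])
  have h2 := cmp_le h0.le ((S.cmom (195 / 100 * a)).mono hs).neg
    (fun x hx => (S.mom (hs' x hx) _).neg) fun x hx => neg_nonneg.2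
      (mul_nonpos_of_nonneg_of_nonpos (pow_pos hx.1 5).le (by
        have h := Ioc_subset_Icc_self (hs' x hx)
        have h3 := mul_le_mul_of_nonneg_left (S.Th_le h) (Real.exp_pos (l x)).le
        have h4 := mul_le_mul_of_nonneg_right (S.q_le h) ha0.le
        nlinarith))
  have h3 := pow_pos h0 6
  have h4 : -(9 / 1000) ≤ Real.exp (l ρ) * u ρ := by
    refine le_of_mul_le_mul_left ?_ h3
    simp only [ne_eq, OfNat.ofNat_ne_zero, not_false_eq_true, zero_pow, zero_mul, mul_zero,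
      sub_zero] at h1
    nlinarith
  have h5 : Real.exp (l ρ) * u ρ ≤ 195 / 100 * a := by
    refine le_of_mul_le_mul_left ?_ h3
    simp only [Pi.neg_apply, ne_eq, OfNat.ofNat_ne_zero, not_false_eq_true, zero_pow, zero_mul,
      mul_zero, sub_zero, neg_zero] at h2
    nlinarith
  have h7 := S.q_ge hρ
  constructor
  · by_contra h
    nlinarith
  · by_contra h
    nlinarith

theorem hTh (h : ρ ∈ Ioo 0 T) : HasDerivAt (Th a β l w)
    (Real.exp (l ρ / a) * (u ρ / a) +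
      (-5 * w ρ - a / 4 - ρ * u ρ * (1 / 4 + 2 * w ρ)) * (1 + 8 * w ρ) - 4 * w ρ ^ 2) ρ := by
  have h0 := h.1.ne'
  have h1 := ((((S.hl ρ (Ioo_subset_Icc_self h)).div_const a).exp.sub_const β).add
    (S.hW (Ioo_subset_Ioc_self h))).add
    (((hasDerivAt_id' ρ).const_mul 4).mul ((S.hw ρ (Ioo_subset_Ioc_self h)).pow 2))
  refine (h1.congr_deriv ?_).congr_of_eventuallyEq ?_
  · simp only [Pi.pow_apply]
    push_cast
    field_simp
    ring
  · filter_upwards [Ioo_mem_nhds h.1 h.2] with y hy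
    exact S.Th_eq (Ioo_subset_Icc_self hy)

theorem U_le (hρ : ρ ∈ Icc 0 T) : ρ * u ρ ≤ 748 * a ^ 2 := by
  have ha0 := S.a0
  have ha1 := S.a1
  obtain ⟨x, hx, hm⟩ := isCompact_Icc.exists_isMaxOn (nonempty_Icc.2 S.T0) S.cU
  refine (hm hρ).trans (not_lt.1 fun hc => ?_)
  have hpos : 0 < x * u x := lt_of_le_of_lt (by positivity) hc
  have h0 : 0 < x := hx.1.lt_of_ne fun h => by rw [← h, zero_mul] at hpos; exact lt_irrefl _ hpos
  have hu : 0 < u x := (mul_pos_iff_of_pos_left h0).1 hpos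
  have hxT : x < T := hx.2.lt_of_ne fun h => by rw [h] at hu; linarith [S.u_last]
  have hG : Gd a β l u w x = 0 :=
    (hm.isLocalMax (Icc_mem_nhds h0 hxT)).hasDerivAt_eq_zero (S.hU ⟨h0, hx.2⟩)
  have hu' : HasDerivAt u (-(u x / x)) x := by
    refine (S.hu x ⟨h0, hx.2⟩).congr_deriv ?_
    unfold Gd at hG
    field_simp
    linarith
  have hd := (((S.hTh ⟨h0, hxT⟩).div_const 4).sub (hu'.const_mul 5)).sub
    ((hasDerivAt_id' x).mul (hu'.pow 2))
  have hw := abs_le.1 (S.w_abs hx)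
  have hx11 : x ≤ 11 := hx.2.trans S.T1
  have hu1 : 68 * a ^ 2 < u x := by nlinarith
  have e1 : u x / (6 * a) ≤ Real.exp (l x / a) * (u x / a) := by
    rw [show u x / (6 * a) = 1 / 6 * (u x / a) by field_simp]
    exact mul_le_mul_of_nonneg_right (S.low x hx) (by positivity)
  have e2 : x * u x * (1 / 4 + 2 * w x) ≤ 28 / 10 * u x := by
    have : x * (1 / 4 + 2 * w x) ≤ 28 / 10 := by nlinarith
    nlinarith
  have e3 : -(105 / 10 * a + 29 / 10 * u x) ≤
      (-5 * w x - a / 4 - x * u x * (1 / 4 + 2 * w x)) * (1 + 8 * w x) := by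
    have h1 : -(1025 / 100 * a + 28 / 10 * u x) ≤
        -5 * w x - a / 4 - x * u x * (1 / 4 + 2 * w x) := by linarith
    have h2 := mul_le_mul_of_nonneg_right h1 (show 0 ≤ 1 + 8 * w x by linarith)
    have h3 : (1025 / 100 * a + 28 / 10 * u x) * (1 + 8 * w x) ≤
        (1025 / 100 * a + 28 / 10 * u x) * (1 + 16 / 1000) :=
      mul_le_mul_of_nonneg_left (by linarith) (by positivity)
    nlinarith
  have e4 : w x ^ 2 ≤ (2 * a) ^ 2 := sq_le_sq' hw.1 hw.2
  have e5 : 11 * a + 3 * u x < u x / (6 * a) := by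
    rw [lt_div_iff₀ (by positivity)]
    nlinarith
  have e6 : 0 < u x / x := div_pos hu h0
  have h2 := ev_right hd (by
    simp only [Pi.pow_apply]
    have : x * ((2 : ℕ) * u x ^ (2 - 1) * -(u x / x)) = -(2 * u x ^ 2) := by
      push_cast
      field_simp
    rw [this]
    nlinarith)
  have key : ∀ᶠ y in 𝓝[>] x, 0 < Gd a β l u w y := by
    filter_upwards [h2] with y hy
    rw [← hG]
    exact hy
  obtain ⟨y, hy, h⟩ := up_right hxT (S.cU.mono (Icc_subset_Icc_left hx.1))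
    (fun y hy => S.hU ⟨h0.trans hy.1, hy.2.le⟩) key
  exact absurd (hm ⟨hx.1.trans hy.1, hy.2⟩) (not_le.2 h)

theorem Gd_ge (hρ : ρ ∈ Icc 0 T) : -(1 / 10) ≤ Gd a β l u w ρ := by
  have h1 := S.u_bd hρ
  have h2 := S.Th_ge hρ
  have ha1 := S.a1
  have h3 : u ρ ^ 2 ≤ (1 / 100) ^ 2 := sq_le_sq' h1.1 (by linarith [h1.2])
  have h4 := mul_le_mul (hρ.2.trans S.T1) h3 (sq_nonneg _) (by norm_num)
  unfold Gd
  linarith [h1.2]

theorem Gd_le (hρ : ρ ∈ Icc 0 T) : Gd a β l u w ρ ≤ 12 * a - 5 * u ρ := by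
  have h2 := S.Th_le hρ
  have h3 := mul_nonneg hρ.1 (sq_nonneg (u ρ))
  unfold Gd
  linarith [S.a0]

theorem u_sq (hρ : ρ ∈ Icc 0 T) : ρ * u ρ ^ 2 ≤ 6 * a := by
  have ha0 := S.a0
  have ha1 := S.a1
  rcases hρ.1.eq_or_lt with h0 | h0
  · rw [← h0, zero_mul]; positivity
  have h11 : ρ ≤ 11 := hρ.2.trans S.T1
  rcases le_total 0 (u ρ) with hu | hu
  · have h1 : u ρ ^ 2 ≤ (2 * a) ^ 2 := sq_le_sq' (by linarith) (S.u_bd hρ).2
    have h2 := mul_le_mul h11 h1 (sq_nonneg _) (by norm_num)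
    nlinarith
  have hs : Icc 0 ρ ⊆ Icc 0 T := Icc_subset_Icc_right hρ.2
  have hs' : ∀ x ∈ Ioo 0 ρ, x ∈ Ioc 0 T := fun x hx => ⟨hx.1, hx.2.le.trans hρ.2⟩
  have hc : ContinuousOn (fun x => 23 / 5 * a * x - (x * u x - 22 * a) ^ 2 - x * l x / 5)
      (Icc 0 T) := by
    have h1 := S.cl
    have h2 := S.cu
    fun_prop
  have h1 := cmp_le h0.le (hc.mono hs) (fun x hx =>
    (((hasDerivAt_id' x).const_mul (23 / 5 * a)).sub
      (((S.hU (hs' x hx)).sub_const (22 * a)).pow 2)).sub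
      (((hasDerivAt_id' x).mul (S.hl x (Ioc_subset_Icc_self (hs' x hx)))).div_const 5))
    fun x hx => by
      have h := Ioc_subset_Icc_self (hs' x hx)
      have h2 : x * u x ≤ 22 * a := by
        have := mul_le_mul_of_nonneg_left (S.u_bd h).2 h.1
        nlinarith [h.2, S.T1]
      have h3 := mul_nonneg (sub_nonneg.2 h2) (sub_nonneg.2 (S.Gd_ge h))
      have h4 := S.l_le h
      push_cast
      nlinarith
  have h2 := mul_le_mul_of_nonneg_left (S.l_ge hρ) h0.le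
  have h3 : ρ * u ρ * a ≤ 0 :=
    mul_nonpos_of_nonpos_of_nonneg (mul_nonpos_of_nonneg_of_nonpos h0.le hu) ha0.le
  refine le_of_mul_le_mul_left ?_ h0
  nlinarith [mul_pos ha0 h0]

theorem tv {b : ℝ} (hb : b ∈ Icc 0 T) {s : ℝ → ℝ} (hs : ∀ x ∈ Ioc 0 T, s x = 2 * Gd a β l u w x) :
    ∫ x in (0 : ℝ)..b, |s x| ≤ 2 * |b * u b| + 648 * a := by
  have ha0 := S.a0
  have hs1 : Icc 0 b ⊆ Icc 0 T := Icc_subset_Icc_right hb.2
  have hs' : ∀ x ∈ Ioo 0 b, x ∈ Ioc 0 T := fun x hx => ⟨hx.1, hx.2.le.trans hb.2⟩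
  have hc : ContinuousOn (fun x => -2 * Gd a β l u w x + 48 * a - 20 * u x) (Icc 0 T) := by
    have h1 := S.cGd
    have h2 := S.cu
    fun_prop
  have hc' : ContinuousOn (fun x => -2 * (x * u x) + 48 * a * x - 20 * l x) (Icc 0 T) := by
    have h1 := S.cl
    have h2 := S.cu
    fun_prop
  have hi := (hc.mono hs1).intervalIntegrable_of_Icc (μ := volume) hb.1
  have h1 := intervalIntegral.norm_integral_le_of_norm_le (f := fun x => |s x|) hb.1
    (ae_of_all _ fun x hx => by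
      have h : x ∈ Ioc 0 T := ⟨hx.1, hx.2.trans hb.2⟩
      have h2 := S.Gd_le (Ioc_subset_Icc_self h)
      have h3 := (S.u_bd (Ioc_subset_Icc_self h)).2
      rw [Real.norm_eq_abs, abs_abs, hs x h, abs_le]
      constructor <;> linarith) hi
  have h2 := intervalIntegral.integral_eq_sub_of_hasDerivAt_of_le hb.1 (hc'.mono hs1)
    (fun x hx => (((((S.hU (hs' x hx)).const_mul (-2)).add
      ((hasDerivAt_id' x).const_mul (48 * a))).sub
      ((S.hl x (Ioc_subset_Icc_self (hs' x hx))).const_mul 20)).congr_deriv (by ring))) hi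
  rw [h2] at h1
  refine (le_abs_self _).trans (h1.trans ?_)
  have h3 := S.l_ge hb
  have h4 := S.l_le ⟨le_rfl, S.T0⟩
  have h5 := neg_abs_le (b * u b)
  nlinarith [hb.2, S.T1]

end Sys

end Vale.Agent.P139Z.ShB
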