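import Mathlib

/-! The real Riccati system of the truncated profile equation before the exit time. -/

open Set Filter Topology

namespace Vale.Agent.P139Z.ShB

section Tools

variable {f f' : ℝ → ℝ} {a b x c : ℝ}

theorem cmp_lt (hab : a < b) (hf : ContinuousOn f (Icc a b))
    (hf' : ∀ x ∈ Ioo a b, HasDerivAt f (f' x) x) (h : ∀ x ∈ Ioo a b, 0 < f' x) : f a < f b := by
  obtain ⟨y, hy, e⟩ := exists_hasDerivAt_eq_slope f f' hab hf hf'
  have h1 := h y hy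
  rw [e, div_pos_iff_of_pos_right (sub_pos.2 hab)] at h1
  linarith

theorem cmp_le (hab : a ≤ b) (hf : ContinuousOn f (Icc a b))
    (hf' : ∀ x ∈ Ioo a b, HasDerivAt f (f' x) x) (h : ∀ x ∈ Ioo a b, 0 ≤ f' x) : f a ≤ f b := by
  rcases hab.eq_or_lt with rfl | hab
  · exact le_rfl
  obtain ⟨y, hy, e⟩ := exists_hasDerivAt_eq_slope f f' hab hf hf'
  have h1 := h y hy
  rw [e, le_div_iff₀ (sub_pos.2 hab)] at h1
  linarith

theorem ev_right (h : HasDerivAt f c x) (hc : 0 < c) : ∀ᶠ y in 𝓝[>] x, f x < f y := by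
  have h1 := (hasDerivAt_iff_tendsto_slope.1 h).eventually (lt_mem_nhds hc)
  filter_upwards [nhdsGT_le_nhdsNE x h1, self_mem_nhdsWithin] with y hy hxy
  rw [slope_def_field, div_pos_iff_of_pos_right (sub_pos.2 hxy)] at hy
  linarith

theorem ev_left (h : HasDerivAt f c x) (hc : c < 0) : ∀ᶠ y in 𝓝[<] x, f x < f y := by
  have h1 := (hasDerivAt_iff_tendsto_slope.1 h).eventually (gt_mem_nhds hc)
  filter_upwards [nhdsLT_le_nhdsNE x h1, self_mem_nhdsWithin] with y hy hxy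
  rw [slope_def_field, div_lt_iff_of_neg (sub_neg.2 hxy)] at hy
  linarith

theorem up_right (hxb : x < b) (hf : ContinuousOn f (Icc x b))
    (hf' : ∀ y ∈ Ioo x b, HasDerivAt f (f' y) y) (h : ∀ᶠ y in 𝓝[>] x, 0 < f' y) :
    ∃ y ∈ Icc x b, f x < f y := by
  obtain ⟨d, hd, hs⟩ := mem_nhdsGT_iff_exists_Ioo_subset.1 h
  have h1 : x < min d b := lt_min hd hxb
  refine ⟨min d b, ⟨h1.le, min_le_right _ _⟩, cmp_lt h1
    (hf.mono (Icc_subset_Icc_right (min_le_right _ _)))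
    (fun y hy => hf' y ⟨hy.1, hy.2.trans_le (min_le_right _ _)⟩)
    fun y hy => hs ⟨hy.1, hy.2.trans_le (min_le_left _ _)⟩⟩

theorem down_left (hax : a < x) (hf : ContinuousOn f (Icc a x))
    (hf' : ∀ y ∈ Ioo a x, HasDerivAt f (f' y) y) (h : ∀ᶠ y in 𝓝[<] x, 0 < f' y) :
    ∃ y ∈ Icc a x, f y < f x := by
  obtain ⟨d, hd, hs⟩ := mem_nhdsLT_iff_exists_Ioo_subset.1 h
  have h1 : max d a < x := max_lt hd hax
  refine ⟨max d a, ⟨le_max_right _ _, h1.le⟩, cmp_lt h1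
    (hf.mono (Icc_subset_Icc_left (le_max_right _ _)))
    (fun y hy => hf' y ⟨(le_max_right _ _).trans_lt hy.1, hy.2⟩)
    fun y hy => hs ⟨(le_max_left _ _).trans_lt hy.1, hy.2⟩⟩

theorem exp_le_lin {t : ℝ} (hx : x ≤ t) (h0 : 0 ≤ t) (ht : t ≤ 1 / 2) :
    Real.exp x ≤ 1 + 2 * t := by
  have h1 := Real.add_one_le_exp (-t)
  have h2 : Real.exp t * Real.exp (-t) = 1 := by rw [← Real.exp_add]; simp
  have h3 := Real.exp_pos t
  refine (Real.exp_le_exp.2 hx).trans ?_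
  by_contra h
  nlinarith

end Tools

/-- The forcing of the radial velocity. -/
noncomputable def Th (a β : ℝ) (l w : ℝ → ℝ) (ρ : ℝ) : ℝ :=
  min (Real.exp (l ρ / a)) 2 - β + ρ * w ρ + 4 * ρ * w ρ ^ 2

/-- The derivative of `ρ u`. -/
noncomputable def Gd (a β : ℝ) (l u w : ℝ → ℝ) (ρ : ℝ) : ℝ :=
  Th a β l w ρ / 4 - 5 * u ρ - ρ * u ρ ^ 2

/-- The system for `l = log |G|` and `u + i w = G'/G`. -/
structure Sys (a β T : ℝ) (l u w : ℝ → ℝ) : Prop where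
  a0 : 0 < a
  a1 : a ≤ 1 / 1000
  b0 : 0.33473 ≤ β
  b1 : β ≤ 0.33483
  T0 : 0 ≤ T
  T1 : T ≤ 11
  cu : ContinuousOn u (Icc 0 T)
  cw : ContinuousOn w (Icc 0 T)
  hl : ∀ ρ ∈ Icc 0 T, HasDerivAt l (u ρ) ρ
  hu : ∀ ρ ∈ Ioc 0 T, HasDerivAt u ((Th a β l w ρ - 24 * u ρ - 4 * ρ * u ρ ^ 2) / (4 * ρ)) ρ
  hw : ∀ ρ ∈ Ioc 0 T, HasDerivAt w ((-a - 24 * w ρ - ρ * u ρ - 8 * ρ * u ρ * w ρ) / (4 * ρ)) ρ
  u0 : 24 * u 0 = Th a β l w 0
  w0 : 24 * w 0 = -a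
  low : ∀ ρ ∈ Icc 0 T, 1 / 6 ≤ Real.exp (l ρ / a)
  last : Real.exp (l T / a) = 1 / 6

namespace Sys

variable {a β T : ℝ} {l u w : ℝ → ℝ} (S : Sys a β T l u w) {ρ : ℝ}
include S

theorem cl : ContinuousOn l (Icc 0 T) := fun x hx => (S.hl x hx).continuousAt.continuousWithinAt

theorem hU (h : ρ ∈ Ioc 0 T) : HasDerivAt (fun x => x * u x) (Gd a β l u w ρ) ρ := by
  have h1 := (hasDerivAt_id' ρ).mul (S.hu ρ h)
  have h2 := h.1.ne'
  refine h1.congr_deriv ?_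
  unfold Gd
  field_simp
  ring

theorem hW (h : ρ ∈ Ioc 0 T) :
    HasDerivAt (fun x => x * w x) (-5 * w ρ - a / 4 - ρ * u ρ * (1 / 4 + 2 * w ρ)) ρ := by
  have h1 := (hasDerivAt_id' ρ).mul (S.hw ρ h)
  have h2 := h.1.ne'
  refine h1.congr_deriv ?_
  field_simp
  ring

theorem cU : ContinuousOn (fun x => x * u x) (Icc 0 T) := continuousOn_id.mul S.cu

theorem cTh : ContinuousOn (Th a β l w) (Icc 0 T) := by
  have h1 := S.cl
  have h2 := S.cw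
  unfold Th
  fun_prop

theorem cGd : ContinuousOn (Gd a β l u w) (Icc 0 T) := by
  have h1 := S.cTh
  have h2 := S.cu
  unfold Gd
  fun_prop

theorem max_pt : ∃ x ∈ Icc 0 T, (∀ ρ ∈ Icc 0 T, l ρ ≤ l x) ∧ (x = T ∨ Th a β l w x ≤ 0) := by
  obtain ⟨x, hx, hm⟩ := isCompact_Icc.exists_isMaxOn (nonempty_Icc.2 S.T0) S.cl
  refine ⟨x, hx, fun ρ hρ => hm hρ, ?_⟩
  rcases hx.2.eq_or_lt with h | hxT
  · exact Or.inl h
  refine Or.inr (not_lt.1 fun hT => ?_)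
  have key : ∀ᶠ y in 𝓝[>] x, 0 < u y := by
    rcases hx.1.eq_or_lt with h0 | h0
    · subst h0
      have h1 : 0 < u 0 := by linarith [S.u0]
      have h2 := (S.cu 0 hx).eventually (lt_mem_nhds h1)
      exact (nhdsWithin_le_iff.2 (mem_of_superset (Ioo_mem_nhdsGT hxT) Ioo_subset_Icc_self)) h2
    · have h1 : u x = 0 :=
        (hm.isLocalMax (Icc_mem_nhds h0 hxT)).hasDerivAt_eq_zero (S.hl x hx)
      have h2 := ev_right (S.hU ⟨h0, hx.2⟩) (by rw [Gd, h1]; linarith)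
      filter_upwards [h2, self_mem_nhdsWithin] with y hy hxy
      rw [h1, mul_zero] at hy
      exact (mul_pos_iff_of_pos_left (h0.trans hxy)).1 hy
  obtain ⟨y, hy, h⟩ := up_right hxT (S.cl.mono (Icc_subset_Icc_left hx.1))
    (fun y hy => S.hl y ⟨hx.1.trans hy.1.le, hy.2.le⟩) key
  exact absurd (hm ⟨hx.1.trans hy.1, hy.2⟩) (not_le.2 h)

theorem n_le {c : ℝ} (hc : β + c < 2) (h6 : 1 / 6 ≤ β + c)
    (h : ∀ x ∈ Icc 0 T, -c ≤ x * w x + 4 * x * w x ^ 2) (hρ : ρ ∈ Icc 0 T) :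
    Real.exp (l ρ / a) ≤ β + c := by
  obtain ⟨x, hx, hm, h1⟩ := S.max_pt
  refine (Real.exp_le_exp.2 (div_le_div_of_nonneg_right (hm ρ hρ) S.a0.le)).trans ?_
  rcases h1 with rfl | h1
  · rw [S.last]; exact h6
  · have h2 := h x hx
    have h3 : min (Real.exp (l x / a)) 2 ≤ β + c := by unfold Th at h1; linarith
    rcases min_le_iff.1 h3 with h4 | h4
    · exact h4
    · linarith

theorem lt_two (hρ : ρ ∈ Icc 0 T) : Real.exp (l ρ / a) < 2 := by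
  have hb0 := S.b0
  have hb1 := S.b1
  refine (S.n_le (c := 11 / 16) (by linarith) (by linarith) (fun x hx => ?_) hρ).trans_lt
    (by linarith)
  nlinarith [mul_nonneg hx.1 (sq_nonneg (2 * w x + 1 / 4)), hx.2, S.T1]

theorem Th_eq (hρ : ρ ∈ Icc 0 T) :
    Th a β l w ρ = Real.exp (l ρ / a) - β + ρ * w ρ + 4 * ρ * w ρ ^ 2 := by
  rw [Th, min_eq_left (S.lt_two hρ).le]

theorem l_le (hρ : ρ ∈ Icc 0 T) : l ρ ≤ a := by
  have h1 := S.lt_two hρ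
  have h2 := Real.add_one_le_exp (l ρ / a)
  have h3 : l ρ / a ≤ 1 := by linarith
  rwa [div_le_one S.a0] at h3

theorem l_ge (hρ : ρ ∈ Icc 0 T) : -(5 * a) ≤ l ρ := by
  have h1 := S.low ρ hρ
  have h2 := Real.add_one_le_exp (-(l ρ / a))
  have h3 : Real.exp (l ρ / a) * Real.exp (-(l ρ / a)) = 1 := by rw [← Real.exp_add]; simp
  have h4 := Real.exp_pos (-(l ρ / a))
  have h5 : -5 ≤ l ρ / a := by nlinarith
  rw [le_div_iff₀ S.a0] at h5
  linarith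

theorem q_le (hρ : ρ ∈ Icc 0 T) : Real.exp (l ρ) ≤ 1 + 2 * a :=
  exp_le_lin (S.l_le hρ) S.a0.le (by linarith [S.a1])

theorem q_ge (hρ : ρ ∈ Icc 0 T) : 1 - 5 * a ≤ Real.exp (l ρ) := by
  linarith [Real.add_one_le_exp (l ρ), S.l_ge hρ]

theorem p_le (hρ : ρ ∈ Icc 0 T) : Real.exp (2 * l ρ) ≤ 1 + 4 * a := by
  have := exp_le_lin (x := 2 * l ρ) (t := 2 * a) (by linarith [S.l_le hρ]) (by linarith [S.a0])
    (by linarith [S.a1])
  linarith

theorem p_ge (hρ : ρ ∈ Icc 0 T) : 1 - 10 * a ≤ Real.exp (2 * l ρ) := by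
  linarith [Real.add_one_le_exp (2 * l ρ), S.l_ge hρ]

theorem mass (h : ρ ∈ Ioc 0 T) (c : ℝ) :
    HasDerivAt (fun x => x ^ 5 * Real.exp (2 * l x) * (x * w x + x / 8) - c * x ^ 6)
      (ρ ^ 5 * (Real.exp (2 * l ρ) * ((3 - a) / 4) - 6 * c)) ρ := by
  have h1 := (((hasDerivAt_pow 5 ρ).mul ((S.hl ρ (Ioc_subset_Icc_self h)).const_mul 2).exp).mul
    ((S.hW h).add ((hasDerivAt_id' ρ).div_const 8))).sub ((hasDerivAt_pow 6 ρ).const_mul c)
  refine h1.congr_deriv ?_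
  simp only [Pi.mul_apply, Pi.add_apply]
  push_cast
  ring

theorem cmass (c : ℝ) : ContinuousOn
    (fun x => x ^ 5 * Real.exp (2 * l x) * (x * w x + x / 8) - c * x ^ 6) (Icc 0 T) := by
  have h1 := S.cl
  have h2 := S.cw
  fun_prop

theorem w_abs (hρ : ρ ∈ Icc 0 T) : |w ρ| ≤ 2 * a := by
  have ha0 := S.a0
  have ha1 := S.a1
  rcases hρ.1.eq_or_lt with h0 | h0
  · subst h0
    rw [abs_le]
    constructor <;> linarith [S.w0]
  have hs : Icc 0 ρ ⊆ Icc 0 T := Icc_subset_Icc_right hρ.2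
  have hs' : ∀ x ∈ Ioo 0 ρ, x ∈ Ioc 0 T := fun x hx => ⟨hx.1, hx.2.le.trans hρ.2⟩
  have h1 := cmp_le h0.le ((S.cmass ((3 - a) * (1 - 10 * a) / 24)).mono hs)
    (fun x hx => S.mass (hs' x hx) _) fun x hx => mul_nonneg (pow_pos hx.1 5).le (by
      nlinarith [S.p_ge (Ioc_subset_Icc_self (hs' x hx))])
  have h2 := cmp_le h0.le ((S.cmass ((3 - a) * (1 + 4 * a) / 24)).mono hs).neg
    (fun x hx => (S.mass (hs' x hx) _).neg) fun x hx => neg_nonneg.2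
      (mul_nonpos_of_nonneg_of_nonpos (pow_pos hx.1 5).le (by
        nlinarith [S.p_le (Ioc_subset_Icc_self (hs' x hx))]))
  have h3 := pow_pos h0 6
  have h4 : (3 - a) * (1 - 10 * a) / 24 ≤ Real.exp (2 * l ρ) * (w ρ + 1 / 8) := by
    refine le_of_mul_le_mul_left ?_ h3
    simp only [ne_eq, OfNat.ofNat_ne_zero, not_false_eq_true, zero_pow, zero_mul, mul_zero,
      sub_zero] at h1
    nlinarith
  have h5 : Real.exp (2 * l ρ) * (w ρ + 1 / 8) ≤ (3 - a) * (1 + 4 * a) / 24 := by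
    refine le_of_mul_le_mul_left ?_ h3
    simp only [Pi.neg_apply, ne_eq, OfNat.ofNat_ne_zero, not_false_eq_true, zero_pow, zero_mul,
      mul_zero, sub_zero, neg_zero] at h2
    nlinarith
  have h6 := S.p_le hρ
  have h7 := S.p_ge hρ
  rw [abs_le]
  constructor
  · by_contra h
    nlinarith
  · by_contra h
    nlinarith

theorem ww_abs (hρ : ρ ∈ Icc 0 T) : |ρ * w ρ + 4 * ρ * w ρ ^ 2| ≤ 23 * a := by
  have h1 := abs_le.1 (S.w_abs hρ)
  have ha0 := S.a0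
  have ha1 := S.a1
  have h2 : w ρ ^ 2 ≤ (2 * a) ^ 2 := sq_le_sq' h1.1 h1.2
  have h3 : |w ρ + 4 * w ρ ^ 2| ≤ 23 / 11 * a := by
    rw [abs_le]
    constructor <;> nlinarith [sq_nonneg (w ρ)]
  rw [show ρ * w ρ + 4 * ρ * w ρ ^ 2 = ρ * (w ρ + 4 * w ρ ^ 2) by ring, abs_mul,
    abs_of_nonneg hρ.1]
  have h4 := mul_le_mul (hρ.2.trans S.T1) h3 (abs_nonneg _) (by norm_num)
  linarith

theorem Th_le (hρ : ρ ∈ Icc 0 T) : Th a β l w ρ ≤ 46 * a := by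
  have hb0 := S.b0
  have hb1 := S.b1
  have h1 := S.n_le (c := 23 * a) (by linarith [S.a1]) (by linarith [S.a0])
    (fun x hx => (abs_le.1 (S.ww_abs hx)).1) hρ
  have h2 := (abs_le.1 (S.ww_abs hρ)).2
  rw [S.Th_eq hρ]
  linarith

theorem Th_ge (hρ : ρ ∈ Icc 0 T) : -(1 / 5) ≤ Th a β l w ρ := by
  have h1 := S.low ρ hρ
  have h2 := (abs_le.1 (S.ww_abs hρ)).1
  rw [S.Th_eq hρ]
  linarith [S.b1, S.a1]

theorem u_last : u T < 0 := by
  have hT : T ∈ Icc 0 T := ⟨S.T0, le_rfl⟩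
  have h1 : Th a β l w T < 0 := by
    have h2 := (abs_le.1 (S.ww_abs hT)).2
    rw [S.Th_eq hT, S.last]
    linarith [S.b0, S.a1]
  rcases S.T0.eq_or_lt with h0 | h0
  · subst h0
    linarith [S.u0]
  refine not_le.1 fun h => ?_
  have key : ∀ᶠ y in 𝓝[<] T, 0 < u y := by
    rcases h.eq_or_lt with h | h
    · have h2 := ev_left (S.hU ⟨h0, le_rfl⟩) (by rw [Gd, ← h]; linarith)
      filter_upwards [h2, Ioo_mem_nhdsLT h0] with y hy hy'
      rw [← h, mul_zero] at hy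
      exact (mul_pos_iff_of_pos_left hy'.1).1 hy
    · exact nhdsWithin_le_nhds ((S.hu T ⟨h0, le_rfl⟩).continuousAt.eventually (lt_mem_nhds h))
  obtain ⟨y, hy, h2⟩ := down_left h0 S.cl (fun y hy => S.hl y (Ioo_subset_Icc_self hy)) key
  have h3 := Real.exp_lt_exp.2 (div_lt_div_of_pos_right h2 S.a0)
  rw [S.last] at h3
  exact absurd (S.low y hy) (not_le.2 h3)

end Sys

end Vale.Agent.P139Z.ShB
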